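import Vale.Agent.P027.Bdl.B1

namespace Vale.Agent.Results.P027.NormalForms

/-- Part 1 (one universal quantifier). For every recursively enumerable set `S` of `k`-tuples of
integers there is a polynomial `F` over the integers such that, for all nonzero rationals `α i`
with three-adic valuations `a i`: if `a ∈ S` then for infinitely many integers `t` the equation
`F (α, t, y) = 0` has no rational solution `y`; if `a ∉ S` then it has a rational solution for
every rational `t`.
Part 2 (universal quantifier over the prime divisors of one unknown). There are polynomials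
`G` and `F` over the integers such that, for all such `α` and `a`: `a ∈ S` if and only if there
is a rational vector `z` with `z 0 ≠ 0` and `G (α, z) = 0` such that for every prime divisor `p`
of the numerator of `z 0` the equation `F (α, z, p, y) = 0` has a rational solution `y`.
Part 3. There is one polynomial `F` over the integers such that for every set `D` of rationals
containing the integers neither the set of all natural numbers `a` such that
`F (a, t, y) = 0` has a rational solution `y` for all `t ∈ D`, nor the set of all `a` such that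
this holds for all but finitely many `t ∈ D`, is recursively enumerable.
Part 4. For every `K` the set of integers, and every recursively enumerable set of tuples of
natural numbers, has a positive existential definition in the field of rationals with any
relation `R` that agrees up to the factor `K` with the comparison of the heights
`max |numerator| denominator` of two rational numbers; the definition does not depend on `R`. -/
theorem result : (∀ (k : ℕ) (S : Set (Fin k → ℤ)), REPred (fun a => a ∈ S) →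
    (∃ (m : ℕ) (F : MvPolynomial (Fin k ⊕ Fin (m + 1)) ℤ), ∀ (α : Fin k → ℚ) (a : Fin k → ℤ),
      (∀ i, α i ≠ 0 ∧ padicValRat 3 (α i) = a i) →
      (a ∈ S → {t : ℤ | ∀ y : Fin m → ℚ,
        MvPolynomial.aeval (Sum.elim α (Matrix.vecCons (t : ℚ) y)) F ≠ 0}.Infinite) ∧
      (a ∉ S → ∀ t : ℚ, ∃ y : Fin m → ℚ,
        MvPolynomial.aeval (Sum.elim α (Matrix.vecCons t y)) F = 0)) ∧
    ∃ (r m : ℕ) (G : MvPolynomial (Fin k ⊕ Fin (r + 1)) ℤ)
      (F : MvPolynomial (Fin k ⊕ (Fin (r + 1) ⊕ Fin (m + 1))) ℤ),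
      ∀ (α : Fin k → ℚ) (a : Fin k → ℤ), (∀ i, α i ≠ 0 ∧ padicValRat 3 (α i) = a i) →
        (a ∈ S ↔ ∃ z : Fin (r + 1) → ℚ, z 0 ≠ 0 ∧ MvPolynomial.aeval (Sum.elim α z) G = 0 ∧
          ∀ p : ℕ, p.Prime → (p : ℤ) ∣ (z 0).num → ∃ y : Fin m → ℚ,
            MvPolynomial.aeval (Sum.elim α (Sum.elim z (Matrix.vecCons (p : ℚ) y))) F = 0)) ∧
    (∃ (m : ℕ) (F : MvPolynomial (Fin (m + 2)) ℤ),
      ∀ D : Set ℚ, (∀ z : ℤ, (z : ℚ) ∈ D) →
        (¬ REPred (fun a : ℕ => ∀ t ∈ D, ∃ y : Fin m → ℚ,
          MvPolynomial.aeval (Matrix.vecCons (a : ℚ) (Matrix.vecCons t y)) F = 0)) ∧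
        ¬ REPred (fun a : ℕ => {t ∈ D | ∀ y : Fin m → ℚ,
          MvPolynomial.aeval (Matrix.vecCons (a : ℚ) (Matrix.vecCons t y)) F ≠ 0}.Finite)) ∧
    ∀ K : ℕ, 1 ≤ K →
      (∃ (m : ℕ) (g : MvPolynomial (Fin 1 ⊕ Fin m) ℤ)
        (L : List ((Fin 1 ⊕ Fin m) × (Fin 1 ⊕ Fin m))), ∀ R : ℚ → ℚ → Prop,
        (∀ x y : ℚ, (max x.num.natAbs x.den ≤ max y.num.natAbs y.den → R x y) ∧
          (R x y → max x.num.natAbs x.den ≤ K * max y.num.natAbs y.den)) →
        ∀ x : Fin 1 → ℚ, ((∃ z : ℤ, x 0 = z) ↔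
          ∃ y : Fin m → ℚ, MvPolynomial.aeval (Sum.elim x y) g = 0 ∧
            ∀ ij ∈ L, R (Sum.elim x y ij.1) (Sum.elim x y ij.2))) ∧
      ∀ (n : ℕ) (S : Set (Fin n → ℕ)), REPred (fun a => a ∈ S) →
        ∃ (m : ℕ) (g : MvPolynomial (Fin n ⊕ Fin m) ℤ)
          (L : List ((Fin n ⊕ Fin m) × (Fin n ⊕ Fin m))), ∀ R : ℚ → ℚ → Prop,
          (∀ x y : ℚ, (max x.num.natAbs x.den ≤ max y.num.natAbs y.den → R x y) ∧
            (R x y → max x.num.natAbs x.den ≤ K * max y.num.natAbs y.den)) →
          ∀ x : Fin n → ℚ, ((∃ a : Fin n → ℕ, a ∈ S ∧ ∀ i, x i = a i) ↔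
            ∃ y : Fin m → ℚ, MvPolynomial.aeval (Sum.elim x y) g = 0 ∧
              ∀ ij ∈ L, R (Sum.elim x y ij.1) (Sum.elim x y ij.2)) :=
  ⟨fun k S hS => ⟨Vale.Agent.P027.K2.dprm_one hS, Vale.Agent.P027.N1.normal_form k S hS⟩,
    Vale.Agent.P027.N1.undec_one,
    fun K hK => ⟨Vale.Agent.P027.HT.final_int K hK,
      fun n S hS => Vale.Agent.P027.HT.final K hK n S hS⟩⟩

end Vale.Agent.Results.P027.NormalForms
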